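import Vale.Agent.P286E57.Cut
import Vale.Agent.P286EA2.End

/-!
# The even block
-/

set_option linter.all false

namespace Vale.Agent.P286E57

open Vale.Agent.P286E Vale.Agent.P286EK Vale.Agent.P286EX Vale.Agent.P286E48 Vale.Agent.P286E99
  Vale.Agent.P286EA2

theorem plus_of {W : WA} (g : WH W B0) (h : MorH g.φ)
    (he : g.φ.e = ((1 / 2 : ℂ) • (1 + E4.w w0) : E4 w0)) (hB : PLUS B0) : PLUS W :=
  fun I _ D xd lam => (hB I D xd lam).imp fun _ h' => (wcut lam xd g h he).trans h'

end Vale.Agent.P286E57
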