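import Vale.Agent.P286E57.Ww
import Vale.Agent.P286E48.Map

/-!
# The cut by the even idempotent is an equivalence
-/

set_option linter.all false

namespace Vale.Agent.P286E57

open CategoryTheory TensorProduct Vale.Agent.P286E Vale.Agent.P286EK Vale.Agent.P286EU
  Vale.Agent.P286EX Vale.Agent.P286E48 Vale.Agent.P286E99

variable {I : Type} [SmallCategory I] {D : CD I} (lam : ℂ) (xd : XD D)

/-- The Morita theorem for weighted algebras with a Weyl pair. -/
theorem wcut' {W W' : WA} (g : WH W W') (h : MorH g.φ) (X : WW W' g.φ.e) :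
    EQV (wc (twB lam W xd)) (wc (twB lam W' xd)) :=
  wcut_gen lam X xd (Ch.map xd.vfd lam g) (Ch.map_e xd.vfd lam g) (Ch.map_morH xd.vfd lam g h)
    (Ch.map_over lam g xd) (tn_F_l xd.vfd g) (tn_F_r xd.vfd g)
    (fun {_ j} _ => tn_l1 xd.vfd g j _) fun {_ j} _ => tn_r1 xd.vfd g j _

/-- **The even part.** -/
theorem wcut {W : WA} (g : WH W B0) (h : MorH g.φ)
    (he : g.φ.e = ((1 / 2 : ℂ) • (1 + E4.w w0) : E4 w0)) :
    EQV (wc (twB lam W xd)) (wc (twB lam B0 xd)) :=
  wcut' lam xd g h (wwB he)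

end Vale.Agent.P286E57
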