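import Vale.Agent.P286EK.Cart

/-!
# A module is a retract of a twisted sum of copies of its even part
-/

set_option linter.all false

namespace Vale.Agent.P286E57

open CategoryTheory Vale.Agent.P286.H353 Vale.Agent.P286E Vale.Agent.P286EG Vale.Agent.P286EK
open Vale.Agent.P286.H847 Vale.Agent.P286.H847.GD Vale.Agent.P286.H710

noncomputable section

universe u v

/-- `G` is a retract of a twisted sum of three copies of `G0`. -/
structure WO (G0 G : GD) where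
  j : Hom G0 G
  b : Hom G0 G
  p : Hom G G0
  a : Hom G G0
  a' : G.V →ₗ[ℂ] G0.V
  b' : G0.V →ₗ[ℂ] G.V
  S : G0.V →ₗ[ℂ] G0.V
  a'_gr : ∀ m x, x ∈ G.gr m → a' x ∈ G0.gr m
  b'_gr : ∀ m x, x ∈ G0.gr m → b' x ∈ G.gr m
  S_gr : ∀ m x, x ∈ G0.gr m → S x ∈ G0.gr (1 + m)
  a'_d : ∀ x, a' (G.d x) = G0.d (a' x) + S (a.f x)
  b'_d : ∀ x, b' (G0.d x) = G.d (b' x) + b.f (S x)
  S_d : ∀ x, G0.d (S x) = -S (G0.d x)
  one : ∀ x, j.f (p.f x) + (b' (a.f x) - b.f (a' x)) = x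

theorem gsh_d (G : GD) (x : G.V) : (gsh G (-1) (-1)).d x = -G.d x := by
  change ((-1 : ℤˣ) : ℤ) • G.d x = _
  rw [Units.val_neg, Units.val_one, neg_smul, one_smul]

namespace WO

variable {G0 G H0 H : GD} (W : WO G0 G)

/-- The twisting map. -/
def sH : Hom (gsh G0 (-1) (-1)) G0 where
  f := W.S
  comm x := by rw [gsh_d, map_neg, W.S_d]
  deg m x hx := by
    have h := W.S_gr _ x hx
    rwa [show 1 + (m + -1) = m by omega] at h

/-- The zero map. -/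
def zH : Hom (gsh G0 (-1) (-1)) (Cone W.sH) :=
  ⟨0, fun x => (map_zero (Cone W.sH).d).symm, fun _ _ _ => zero_mem _⟩

theorem sh_mem {m : ℤ} {x : G0.V} : x ∈ (gsh G0 (-1) (-1)).gr (m + 1) ↔ x ∈ G0.gr m := by
  change x ∈ G0.gr (m + 1 + -1) ↔ _
  rw [show m + 1 + -1 = m by omega]

theorem L_d (x : (G0.V × G0.V) × G0.V) :
    (Cone W.zH).d x = ((G0.d x.1.1 + W.S x.1.2, G0.d x.1.2), G0.d x.2) := by
  rw [cone_d, cone_d, gsh_d, gsh_d, neg_neg, neg_neg]
  exact Prod.ext (add_zero _) rfl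

/-- The section. -/
def i : Hom G (Cone W.zH) where
  f := (W.a'.prod W.a.f).prod W.p.f
  comm x := by
    rw [L_d]
    exact Prod.ext (Prod.ext (W.a'_d x) (W.a.comm x)) (W.p.comm x)
  deg m x hx := ⟨⟨W.a'_gr m x hx, sh_mem.2 (W.a.deg m x hx)⟩, sh_mem.2 (W.p.deg m x hx)⟩

/-- The retraction. -/
def r : Hom (Cone W.zH) G where
  f := ((-W.b.f).coprod W.b').coprod W.j.f
  comm x := by
    rw [L_d]
    simp only [LinearMap.coprod_apply, LinearMap.neg_apply, map_add, map_neg, W.b'_d, W.b.comm,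
      W.j.comm]
    abel
  deg m x hx := add_mem (add_mem (neg_mem (W.b.deg m _ hx.1.1)) (W.b'_gr m _ (sh_mem.1 hx.1.2)))
    (W.j.deg m _ (sh_mem.1 hx.2))

theorem r_f (x : (G0.V × G0.V) × G0.V) :
    W.r.f x = -W.b.f x.1.1 + W.b' x.1.2 + W.j.f x.2 := rfl

theorem r_i (x : G.V) : W.r.f (W.i.f x) = x := by
  refine Eq.trans ?_ (W.one x)
  change -W.b.f (W.a' x) + W.b' (W.a.f x) + W.j.f (W.p.f x) = _
  abel

/-- The operators commute with a pair of maps. -/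
structure Cp (W' : WO H0 H) (ρ0 : Hom G0 H0) (ρ : Hom G H) : Prop where
  j : ∀ x, W'.j.f (ρ0.f x) = ρ.f (W.j.f x)
  b : ∀ x, W'.b.f (ρ0.f x) = ρ.f (W.b.f x)
  b' : ∀ x, W'.b' (ρ0.f x) = ρ.f (W.b' x)
  p : ∀ x, W'.p.f (ρ.f x) = ρ0.f (W.p.f x)
  a : ∀ x, W'.a.f (ρ.f x) = ρ0.f (W.a.f x)
  a' : ∀ x, W'.a' (ρ.f x) = ρ0.f (W.a' x)
  S : ∀ x, W'.S (ρ0.f x) = ρ0.f (W.S x)

end WO

variable {A B : Type} [CommRing A] [CommRing B]

/-- The operators are linear. -/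
structure Lin (M0 M : AG A) (W : WO M0.G M.G) : Prop where
  j : ∀ z x, W.j.f (M0.fn z x) = M.fn z (W.j.f x)
  b : ∀ z x, W.b.f (M0.fn z x) = M.fn z (W.b.f x)
  b' : ∀ z x, W.b' (M0.fn z x) = M.fn z (W.b' x)
  p : ∀ z x, W.p.f (M.fn z x) = M0.fn z (W.p.f x)
  a : ∀ z x, W.a.f (M.fn z x) = M0.fn z (W.a.f x)
  a' : ∀ z x, W.a' (M.fn z x) = M0.fn z (W.a' x)
  S : ∀ z x, W.S (M0.fn z x) = M0.fn z (W.S x)

namespace Lin

variable {M0 M : AG A} {W : WO M0.G M.G} (h : Lin M0 M W)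

include h

theorem sH : Li (M0.sh (-1) (-1)) M0 W.sH := h.S

theorem zH : Li (M0.sh (-1) (-1)) (AG.cone h.sH) W.zH := fun z _ =>
  (map_zero ((AG.cone h.sH).fn z)).symm

theorem i : Li M (AG.cone h.zH) W.i := fun z x =>
  Prod.ext (Prod.ext (h.a' z x) (h.a z x)) (h.p z x)

theorem r : Li (AG.cone h.zH) M W.r := fun z x => by
  change -W.b.f (M0.fn z x.1.1) + W.b' (M0.fn z x.1.2) + W.j.f (M0.fn z x.2) =
    M.fn z (-W.b.f x.1.1 + W.b' x.1.2 + W.j.f x.2)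
  rw [h.b, h.b', h.j, map_add, map_add, map_neg]

end Lin

/-- **The derived base change is detected on the even parts.** -/
theorem db_wo [Algebra ℂ A] [Algebra.Smooth ℂ A] {f : A →+* B} {M0 M : AG A} {N0 N : AG B}
    {W : WO M0.G M.G} {W' : WO N0.G N.G} (hW : Lin M0 M W) (hW' : Lin N0 N W')
    {ρ0 : Hom M0.G N0.G} {ρ : Hom M.G N.G} (c : W.Cp W' ρ0 ρ) (hρ : Sl f M N ρ)
    (h : DB f M0 N0 ρ0) : DB f M N ρ := by
  have h1 := (h.sh (-1) (-1)).cone h hW.sH hW'.sH c.S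
  have h2 := (h.sh (-1) (-1)).cone h1 hW.zH hW'.zH fun _ => (map_zero _).symm
  refine h2.retract hρ hW.i hW'.i hW.r hW'.r (fun x => ?_) (fun x => ?_) W.r_i W'.r_i
  · exact Prod.ext (Prod.ext (c.a' x) (c.a x)) (c.p x)
  · change -W'.b.f (ρ0.f x.1.1) + W'.b' (ρ0.f x.1.2) + W'.j.f (ρ0.f x.2) =
      ρ.f (-W.b.f x.1.1 + W.b' x.1.2 + W.j.f x.2)
    rw [c.b, c.b', c.j, map_add, map_add, map_neg]

/-- A graded differential space, over the ground field. -/
abbrev agC (G : GD) : AG ℂ :=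
  ⟨G, algebraMap ℂ _, fun c m _ hx => (G.gr m).smul_mem c hx, fun c x => G.d.map_smul c x⟩

theorem lin_agC {G0 G : GD} (W : WO G0 G) : Lin (agC G0) (agC G) W :=
  ⟨W.j.f.map_smul, W.b.f.map_smul, W.b'.map_smul, W.p.f.map_smul, W.a.f.map_smul, W.a'.map_smul,
    W.S.map_smul⟩

/-- **Quasi-isomorphisms are detected on the even parts.** -/
theorem qis_wo {G0 G H0 H : GD} {W : WO G0 G} {W' : WO H0 H} {ρ0 : Hom G0 H0} {ρ : Hom G H}
    (c : W.Cp W' ρ0 ρ) (h : Qis ρ0) : Qis ρ :=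
  (db_bij (f := RingHom.id ℂ) (M := agC G) (N := agC H) Function.bijective_id ρ.f.map_smul).1
    (db_wo (lin_agC W) (lin_agC W') c ρ.f.map_smul
      ((db_bij (f := RingHom.id ℂ) (M := agC G0) (N := agC H0) Function.bijective_id
        ρ0.f.map_smul).2 h))

/-- A Weyl pair `t`, `D` which is odd for the idempotent `e`, with `D` closed up to `t S`. -/
structure WE {B : DGA} (e : B.R) where
  t : B.R
  D : B.R
  S : B.R
  t_gr : t ∈ B.gr 0
  D_gr : D ∈ B.gr 0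
  S_gr : S ∈ B.gr 1
  d_t : B.d t = 0
  d_D : B.d D = -(t * S)
  d_S : B.d S = 0
  tS : t * S = S * t
  eS : e * S = S * e
  et : e * t + t * e = t
  eD : e * D + D * e = D
  Dt : D * t - t * D = 1

namespace WE

variable {A A' B B' : DGA}

/-- The image under a homomorphism. -/
def map {e : B.R} (W : WE e) (τ : AHom B B') {e' : B'.R} (h : τ.f e = e') : WE e' where
  t := τ.f W.t
  D := τ.f W.D
  S := τ.f W.S
  t_gr := τ.deg _ _ W.t_gr
  D_gr := τ.deg _ _ W.D_gr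
  S_gr := τ.deg _ _ W.S_gr
  d_t := by rw [← τ.comm, W.d_t, map_zero]
  d_D := by rw [← τ.comm, W.d_D, map_neg, map_mul]
  d_S := by rw [← τ.comm, W.d_S, map_zero]
  tS := by rw [← map_mul, ← map_mul, W.tS]
  eS := by rw [← h, ← map_mul, ← map_mul, W.eS]
  et := by rw [← h, ← map_mul, ← map_mul, ← map_add, W.et]
  eD := by rw [← h, ← map_mul, ← map_mul, ← map_add, W.eD]
  Dt := by rw [← map_mul, ← map_mul, ← map_sub, W.Dt, map_one]

theorem key {e : B.R} (W : WE e) : e + (W.D * (e * W.t) - W.t * (e * W.D)) = 1 := by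
  have h1 : W.D * e = W.D - e * W.D := eq_sub_of_add_eq' W.eD
  have h2 : W.t * e = W.t - e * W.t := eq_sub_of_add_eq' W.et
  rw [← mul_assoc, ← mul_assoc, h1, h2, sub_mul, sub_mul, mul_assoc, mul_assoc,
    sub_sub_sub_comm, ← mul_sub, W.Dt, mul_one, add_sub_cancel]

variable {φ : NHom A B} (W : WE φ.e) (M : DGM B)

theorem d_act_D (x : M.V) : M.act W.D (M.d x) = M.d (M.act W.D x) + M.act W.t (M.act W.S x) := by
  rw [M.leib, W.d_D, sg_zero W.D_gr, map_neg, LinearMap.neg_apply, M.act_mul]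
  abel

theorem d_act_S (x : M.V) : M.d (M.act W.S x) = -M.act W.S (M.d x) := by
  rw [M.leib, W.d_S, B.sg_gr 1 _ W.S_gr]
  simp

theorem e_S (x : M.V) : M.act φ.e (M.act W.S x) = M.act W.S (M.act φ.e x) := by
  rw [← M.act_mul, ← M.act_mul, W.eS]

/-- The operators on a module. -/
def wo : WO (Img (φ.le M)) M.toGD where
  j := Img.incl _
  b := (M.lm W.t W.t_gr W.d_t).comp (Img.incl _)
  p := Img.proj _ (φ.le_le M)
  a := (Img.proj _ (φ.le_le M)).comp (M.lm W.t W.t_gr W.d_t)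
  a' := (Img.proj _ (φ.le_le M)).f.comp (M.act W.D)
  b' := (M.act W.D).comp (Img.incl _).f
  S := Img.lin _ ((M.act W.S).comp (Img.incl _).f) fun x =>
    (W.e_S M x.1).trans (congrArg (M.act W.S) (Img.fix x))
  a'_gr m x hx := (Img.proj _ (φ.le_le M)).deg m _ (by simpa using M.act_gr 0 m _ x W.D_gr hx)
  b'_gr m x hx := by
    have h := M.act_gr 0 m _ x.1 W.D_gr hx
    rwa [zero_add] at h
  S_gr m x hx := M.act_gr 1 m _ x.1 W.S_gr hx
  a'_d x := Subtype.ext (by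
    change M.act φ.e (M.act W.D (M.d x)) =
      M.d (M.act φ.e (M.act W.D x)) + M.act W.S (M.act φ.e (M.act W.t x))
    rw [W.d_act_D, map_add, ← W.e_S, ← M.act_mul W.t, W.tS, M.act_mul W.S]
    exact congrArg (· + _) ((φ.le M).comm _))
  b'_d x := W.d_act_D M x.1
  S_d x := Subtype.ext (W.d_act_S M x.1)
  one x := by
    change M.act φ.e x + (M.act W.D (M.act φ.e (M.act W.t x)) -
      M.act W.t (M.act φ.e (M.act W.D x))) = x
    rw [← M.act_mul, ← M.act_mul, ← M.act_mul, ← M.act_mul, mul_assoc, mul_assoc,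
      ← LinearMap.sub_apply, ← LinearMap.add_apply, ← map_sub, ← map_add, W.key, M.act_one]

theorem cp {φ' : NHom A' B'} (W' : WE φ'.e) (M' : DGM B') (ρ : Hom M.toGD M'.toGD)
    (he : ∀ x, ρ.f (M.act φ.e x) = M'.act φ'.e (ρ.f x))
    (ht : ∀ x, ρ.f (M.act W.t x) = M'.act W'.t (ρ.f x))
    (hD : ∀ x, ρ.f (M.act W.D x) = M'.act W'.D (ρ.f x))
    (hS : ∀ x, ρ.f (M.act W.S x) = M'.act W'.S (ρ.f x)) :
    (W.wo M).Cp (W'.wo M') (Img.map (φ.le M) (φ'.le M') ρ he) ρ :=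
  ⟨fun _ => rfl, fun x => (ht x.1).symm, fun x => (hD x.1).symm, fun x => Subtype.ext (he x).symm,
    fun x => Subtype.ext ((he _).trans (congrArg (M'.act φ'.e) (ht x))).symm,
    fun x => Subtype.ext ((he _).trans (congrArg (M'.act φ'.e) (hD x))).symm,
    fun x => Subtype.ext (hS x.1).symm⟩

/-- The cut reflects quasi-isomorphisms. -/
theorem qis_of_cut (W : WE φ.e) {M M' : DGM B} (u : Hom M.toGD M'.toGD)
    (hu : ∀ b x, u.f (M.act b x) = M'.act b (u.f x))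
    (h : Qis (Img.map (φ.le M) (φ.le M') u (hu _))) : Qis u :=
  qis_wo (W.cp M W M' u (hu _) (hu _) (hu _) (hu _)) h

end WE

variable {I : Type u} [Category.{v} I] {DA DB' : DD I} {R : RD I} (f : DHom DA DB')
  {b : Base DA R} {b' : Base DB' R}

theorem qis_iff (W : ∀ i, WE (f.φ i).e) ⦃X Y : Z0 (mdc DB')⦄ (u : X ⟶ Y) :
    mqis DB' u ↔ mqis DA (f.Xi.z0.map u) :=
  ⟨fun h i => Img.qis_map ((f.φ i).le_le _) ((f.φ i).le_le _) (mh u i) (mh_act u i _) (h i),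
    fun h i => (W i).qis_of_cut (mh u i) (mh_act u i) (h i)⟩

theorem lin_wo (ho : f.Over b b') (M : DM DB') (i : I) (W : WE (f.φ i).e)
    (ht : ∀ z, W.t * b'.ι i z = b'.ι i z * W.t) (hD : ∀ z, W.D * b'.ι i z = b'.ι i z * W.D)
    (hS : ∀ z, W.S * b'.ι i z = b'.ι i z * W.S) :
    Lin (b.ag i ((f.xi M).M i)) (b'.ag i (M.M i)) (W.wo (M.M i)) := by
  have h0 : ∀ {x : (DB'.A i).R}, (∀ z, x * b'.ι i z = b'.ι i z * x) → ∀ z y,
      (M.M i).act x ((M.M i).act (b'.ι i z) y) = (M.M i).act (b'.ι i z) ((M.M i).act x y) :=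
    fun h z y => by rw [← DGM.act_mul, ← DGM.act_mul, h]
  have h1 := ho.incl f M i
  have h2 : ∀ z y, (M.M i).act (f.φ i).e ((M.M i).act (b'.ι i z) y) =
      (M.M i).act ((f.φ i).f (b.ι i z)) ((M.M i).act (f.φ i).e y) := fun z y => by
    rw [← DGM.act_mul, ← DGM.act_mul, (f.φ i).mul_e, ho.l]
  refine ⟨h1, fun z x => (congrArg ((M.M i).act W.t) (h1 z x)).trans (h0 ht z _),
    fun z x => (congrArg ((M.M i).act W.D) (h1 z x)).trans (h0 hD z _),
    fun z x => Subtype.ext (h2 z x),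
    fun z x => Subtype.ext ((congrArg ((M.M i).act (f.φ i).e) (h0 ht z x)).trans (h2 z _)),
    fun z x => Subtype.ext ((congrArg ((M.M i).act (f.φ i).e) (h0 hD z x)).trans (h2 z _)),
    fun z x => Subtype.ext (((congrArg ((M.M i).act W.S) (h1 z x)).trans (h0 hS z _)).trans
      (h1 z ((W.wo (M.M i)).S x)).symm)⟩

/-- Weyl pairs in a diagram whose images commute with the base rings. -/
structure WC (f : DHom DA DB') (b' : Base DB' R) where
  W : ∀ i, WE (f.φ i).e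
  t : ∀ {i j : I} (α : i ⟶ j) z, (DB'.τ α).f (W i).t * b'.ι j z = b'.ι j z * (DB'.τ α).f (W i).t
  D : ∀ {i j : I} (α : i ⟶ j) z, (DB'.τ α).f (W i).D * b'.ι j z = b'.ι j z * (DB'.τ α).f (W i).D
  S : ∀ {i j : I} (α : i ⟶ j) z, (DB'.τ α).f (W i).S * b'.ι j z = b'.ι j z * (DB'.τ α).f (W i).S

/-- A module is cartesian if its even part is. -/
theorem cart_of_xi (ho : f.Over b b') (X : WC f b') (M : DM DB') (h : Cart b (f.xi M)) :
    Cart b' M := fun i j α =>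
  db_wo (lin_wo f ho M i (X.W i) (fun z => by simpa only [DB'.τ_id] using X.t (𝟙 i) z)
      (fun z => by simpa only [DB'.τ_id] using X.D (𝟙 i) z)
      fun z => by simpa only [DB'.τ_id] using X.S (𝟙 i) z)
    (lin_wo f ho M j ((X.W i).map (DB'.τ α) (f.τ_e α)) (X.t α) (X.D α) (X.S α))
    ((X.W i).cp (M.M i) _ (M.M j) (M.ρ α)
      (fun x => (M.ρ_act α _ x).trans (by rw [f.τ_e])) (M.ρ_act α _) (M.ρ_act α _) (M.ρ_act α _))
    (b'.sl M α) (h i j α)

/-- **The Morita theorem for cartesian modules, with Weyl pairs.** -/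
theorem eqw (h : ∀ i, MorH (f.φ i)) (ho : f.Over b b') (X : WC f b') : EQV (wc b) (wc b') :=
  P286EK.eqv_full (X := wm DA) (Y := wm DB')
    (f.mor' h (t3_mqis DA) (fun _ _ _ h => h) (qis_iff f X.W)) (invt_cart b)
    fun M => ⟨f.cart_xi ho M, cart_of_xi f ho X M⟩

end

end Vale.Agent.P286E57
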