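import Vale.Agent.P286E57.Wo
import Vale.Agent.P286EK.Tw

/-!
# Weyl pairs in twisted matrix algebras
-/

set_option linter.all false

namespace Vale.Agent.P286E57

open CategoryTheory Vale.Agent.P286.H353 Vale.Agent.P286E Vale.Agent.P286EG Vale.Agent.P286EK
open Vale.Agent.P286.H847 Vale.Agent.P286.H847.GD Vale.Agent.P286.H710

noncomputable section

universe u v

/-- A closed Weyl pair `t`, `D` which is odd for `e`, with `[D, F] = 2 t`. -/
structure W1 {B : DGA} (e : B.R) (F : CZ B) where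
  t : B.R
  D : B.R
  t_gr : t ∈ B.gr 0
  D_gr : D ∈ B.gr 0
  d_t : B.d t = 0
  d_D : B.d D = 0
  Ft : F.x * t = t * F.x
  DF : D * F.x - F.x * D = t + t
  et : e * t + t * e = t
  eD : e * D + D * e = D
  Dt : D * t - t * D = 1

variable {A B : DGA}

/-- The matrix `2 E₀₁`. -/
def s2 (F : CZ B) : (TwA F).R := TwA.of F (Matrix.single 0 1 (1 + 1))

theorem s2_m (F : CZ B) (k l : Fin 2) :
    TwA.m (s2 F) k l = (Matrix.single 0 1 (1 + 1) : Matrix (Fin 2) (Fin 2) B.R) k l := rfl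

theorem sc_comm (F : CZ B) (x : B.R) (a : (TwA F).R)
    (h : ∀ k l, TwA.m a k l * x = x * TwA.m a k l) : a * TwA.sc F x = TwA.sc F x * a := by
  refine TwA.ext4 ?_ ?_ ?_ ?_ <;> simp [Matrix.mul_apply, TwA.sc_m, h]

theorem s2_sc (F : CZ B) (x : B.R) : TwA.sc F x * s2 F = s2 F * TwA.sc F x :=
  (sc_comm F x _ fun k l => by
    fin_cases k <;> fin_cases l <;> simp [s2_m, add_mul, mul_add]).symm

/-- The Weyl pair of scalar matrices. -/
def W1.we {e : B.R} {F : CZ B} (W : W1 e F) {e' : (TwA F).R} (h : e' = TwA.sc F e) : WE e' where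
  t := TwA.sc F W.t
  D := TwA.sc F W.D
  S := s2 F
  t_gr := TwA.sc_mem F W.t_gr
  D_gr := TwA.sc_mem F W.D_gr
  S_gr := by simp [TwA.mem4, s2_m, add_mem B.one_gr B.one_gr]
  d_t := TwA.d_sc F W.d_t (by rw [sg_zero W.t_gr, W.Ft])
  d_D := by
    have e1 : F.x * W.D - W.D * F.x = -(W.t + W.t) := by rw [← W.DF, neg_sub]
    refine TwA.ext4 ?_ ?_ ?_ ?_ <;>
      simp [TwA.d00, TwA.d01, TwA.d10, TwA.d11, TwA.sc_m, s2_m, W.d_D, sg_zero W.D_gr,
        Matrix.mul_apply, e1, mul_add]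
  d_S := by
    refine TwA.ext4 ?_ ?_ ?_ ?_ <;> simp [TwA.d00, TwA.d01, TwA.d10, TwA.d11, s2_m]
  tS := s2_sc F _
  eS := h ▸ s2_sc F _
  et := by rw [h, ← map_mul, ← map_mul, ← map_add, W.et]
  eD := by rw [h, ← map_mul, ← map_mul, ← map_add, W.eD]
  Dt := by rw [← map_mul, ← map_mul, ← map_sub, W.Dt, map_one]

theorem tw1_sc (φ : NHom A B) (F : CZ A) (F' : CZ B) (hl hr) (a : A.R) :
    (φ.tw1 F F' hl hr).f (TwA.sc F a) = TwA.sc F' (φ.f a) := by
  refine TwA.ext4 ?_ ?_ ?_ ?_ <;> simp [NHom.tw1_m, TwA.sc_m]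

theorem tw1_e (φ : NHom A B) (F : CZ A) (F' : CZ B) (hl hr) :
    (φ.tw1 F F' hl hr).e = TwA.sc F' φ.e :=
  (congrArg (φ.tw1 F F' hl hr).f (map_one (TwA.sc F)).symm).trans (tw1_sc φ F F' hl hr 1)

variable {I : Type u} [Category.{v} I] {D DA DB' : DD I} {R : RD I}

theorem tau_comm (T : TD D) {i j : I} (α : i ⟶ j) (x : (D.A j).R)
    (hu : (T.u α).1 * x = x * T.u α) (a : (TwA (T.F i)).R)
    (h : ∀ k l, (D.τ α).f (TwA.m a k l) * x = x * (D.τ α).f (TwA.m a k l)) :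
    (T.n α).f a * TwA.sc (T.F j) x = TwA.sc (T.F j) x * (T.n α).f a := by
  have h1 : ∀ k, Commute (T.g α k).1 x := fun k => by
    fin_cases k
    · exact Commute.one_left x
    · exact hu
  refine sc_comm (T.F j) x _ fun k l => ?_
  rw [TD.n_m]
  exact (h1 k).mul_left (Commute.mul_left (h k l) (h1 l).units_inv_left)

theorem tau_sc (T : TD D) {i j : I} (α : i ⟶ j) (x : (D.A j).R)
    (hu : (T.u α).1 * x = x * T.u α) (a : (D.A i).R)
    (h : (D.τ α).f a * x = x * (D.τ α).f a) :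
    (T.n α).f (TwA.sc (T.F i) a) * TwA.sc (T.F j) x =
      TwA.sc (T.F j) x * (T.n α).f (TwA.sc (T.F i) a) :=
  tau_comm T α x hu _ fun k l => by
    rw [TwA.sc_m]
    split_ifs
    · exact h
    · rw [map_zero, zero_mul, mul_zero]

theorem tau_s2 (T : TD D) {i j : I} (α : i ⟶ j) (x : (D.A j).R)
    (hu : (T.u α).1 * x = x * T.u α) :
    (T.n α).f (s2 (T.F i)) * TwA.sc (T.F j) x = TwA.sc (T.F j) x * (T.n α).f (s2 (T.F i)) :=
  tau_comm T α x hu _ fun k l => by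
    fin_cases k <;> fin_cases l <;> simp [s2_m, add_mul, mul_add]

/-- Closed Weyl pairs in a diagram whose images commute with the base rings. -/
structure WT (f : DHom DA DB') (T' : TD DB') (b' : Base DB' R) where
  W : ∀ i, W1 (f.φ i).e (T'.F i)
  t : ∀ {i j : I} (α : i ⟶ j) z, (DB'.τ α).f (W i).t * b'.ι j z = b'.ι j z * (DB'.τ α).f (W i).t
  D : ∀ {i j : I} (α : i ⟶ j) z, (DB'.τ α).f (W i).D * b'.ι j z = b'.ι j z * (DB'.τ α).f (W i).D

variable (f : DHom DA DB') (T : TD DA) (T' : TD DB') {b : Base DA R} {b' : Base DB' R}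

/-- The Weyl pairs of scalar matrices. -/
def WT.wc (X : WT f T' b') (hl hr ul ur) (hF hu) :
    WC (f.tw T T' hl hr ul ur) (b'.tw T' hF hu) where
  W i := (X.W i).we (tw1_e _ _ _ (hl i) (hr i))
  t α z := tau_sc T' α _ (hu α z) _ (X.t α z)
  D α z := tau_sc T' α _ (hu α z) _ (X.D α z)
  S α z := tau_s2 T' α _ (hu α z)

theorem over_tw (ho : f.Over b b') (hl hr ul ur) (gF gu) (hF hu) :
    (f.tw T T' hl hr ul ur).Over (b.tw T gF gu) (b'.tw T' hF hu) :=
  ⟨fun i z => (tw1_sc _ _ _ (hl i) (hr i) (b.ι i z)).trans (by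
      rw [ho.l, map_mul, ← tw1_e _ _ _ (hl i) (hr i)]; rfl),
    fun i z => (tw1_sc _ _ _ (hl i) (hr i) (b.ι i z)).trans (by
      rw [ho.r, map_mul, ← tw1_e _ _ _ (hl i) (hr i)]; rfl)⟩

/-- **The Morita theorem for twisted matrix algebras, with Weyl pairs.** -/
theorem eqt (ho : f.Over b b') (X : WT f T' b') (hl hr ul ur) (gF gu) (hF hu)
    (h : ∀ i, MorH ((f.tw T T' hl hr ul ur).φ i)) :
    EQV (wc (b.tw T gF gu)) (wc (b'.tw T' hF hu)) :=
  eqw _ h (over_tw f T T' ho hl hr ul ur gF gu hF hu) (X.wc f T T' hl hr ul ur hF hu)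

end

end Vale.Agent.P286E57
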