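import Vale.Agent.P286E57.Wt
import Vale.Agent.P286E48.Ch
import Vale.Agent.P286E99.B0

/-!
# Weyl pairs in chart algebras
-/

set_option linter.all false

namespace Vale.Agent.P286E57

open CategoryTheory TensorProduct Vale.Agent.P286E Vale.Agent.P286EK Vale.Agent.P286EU
  Vale.Agent.P286EX Vale.Agent.P286E48 Vale.Agent.P286E99

noncomputable section

/-- A closed Weyl pair `t`, `D` which is odd for `e`, with `[D, q] = 2 t`. -/
structure WW (W : WA) (e : W.A.R) where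
  t : W.A.R
  D : W.A.R
  t_gr : t ∈ W.A.gr 0
  D_gr : D ∈ W.A.gr 0
  d_t : W.A.d t = 0
  d_D : W.A.d D = 0
  qt : W.q * t = t * W.q
  Dq : D * W.q - W.q * D = t + t
  et : e * t + t * e = t
  eD : e * D + D * e = D
  Dt : D * t - t * D = 1

variable {I : Type} [SmallCategory I] {D : CD I} (V : VF D) (lam : ℂ) {W : WA} {e : W.A.R}

/-- The element `1 ⊗ a`. -/
def rr (W : WA) (i : I) : W.A.R →ₐ[ℂ] (TA (Dp V i) W.A).R := Algebra.TensorProduct.includeRight

theorem rr_apply (i : I) (a : W.A.R) : rr V W i a = (1 : Dp V i) ⊗ₜ[ℂ] a := rfl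

theorem fz_rr (i : I) (z : D.C i) (a : W.A.R) :
    fz V W i z * rr V W i a = rr V W i a * fz V W i z := by
  rw [rr_apply, ← map_one (fo V i), fz_comm]

theorem d_rr (i : I) {a : W.A.R} (h : W.A.d a = 0) : (TA (Dp V i) W.A).d (rr V W i a) = 0 :=
  (congrArg ((1 : Dp V i) ⊗ₜ[ℂ] ·) h).trans (tmul_zero _ _)

theorem F_rr (i : I) (a : W.A.R) : rr V W i a * (chF V W i).x - (chF V W i).x * rr V W i a =
    rr V W i (a * W.q - W.q * a) := by
  rw [chF_x, ← rr_apply, mul_sub, sub_mul, fz_rr, map_sub, map_mul, map_mul, sub_sub_sub_cancel_right]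

/-- The Weyl pair in the chart algebra. -/
def WW.w1 (X : WW W e) (i : I) {e' : (TA (Dp V i) W.A).R} (h : e' = (1 : Dp V i) ⊗ₜ[ℂ] e) :
    W1 e' (chF V W i) where
  t := rr V W i X.t
  D := rr V W i X.D
  t_gr := tmul_tg _ X.t_gr
  D_gr := tmul_tg _ X.D_gr
  d_t := d_rr V i X.d_t
  d_D := d_rr V i X.d_D
  Ft := (sub_eq_zero.1 (by rw [F_rr, X.qt, sub_self, map_zero])).symm
  DF := by rw [F_rr, X.Dq, map_add]
  et := by rw [h, ← rr_apply, ← map_mul, ← map_mul, ← map_add, X.et]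
  eD := by rw [h, ← rr_apply, ← map_mul, ← map_mul, ← map_add, X.eD]
  Dt := by rw [← map_mul, ← map_mul, ← map_sub, X.Dt, map_one]

theorem ta_rr {i j : I} (α : i ⟶ j) (z : D.C j) (a : W.A.R) :
    ta V lam W α (rr V W i a) * fz V W j z = fz V W j z * ta V lam W α (rr V W i a) := by
  induction a using W.ind with
  | zero => simp
  | add a b ha hb => simp only [map_add, add_mul, mul_add, ha, hb]
  | hom k a ha => rw [rr_apply, ta_one V lam W α ha, fz_comm]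

/-- The Weyl pairs in the diagram of chart algebras. -/
def WW.wt (X : WW W e) (xd : XD D) {DA : DD I} (f : DHom DA (Ch xd.vfd lam W))
    (h : ∀ i, (f.φ i).e = (1 : Dp xd.vfd i) ⊗ₜ[ℂ] e) :
    WT f (chT xd.vfd lam W) (chB lam W xd) where
  W i := X.w1 xd.vfd i (h i)
  t α z := ta_rr xd.vfd lam α z _
  D α z := ta_rr xd.vfd lam α z _

/-- The Morita theorem for chart algebras. -/
theorem wcut_gen (X : WW W e) (xd : XD D) {W' : WA} (f : DHom (Ch xd.vfd lam W') (Ch xd.vfd lam W))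
    (he : ∀ i, (f.φ i).e = (1 : Dp xd.vfd i) ⊗ₜ[ℂ] e) (h : ∀ i, MorH (f.φ i))
    (ho : f.Over (chB lam W' xd) (chB lam W xd))
    (hl : ∀ i a, (f.φ i).f ((chF xd.vfd W' i).x * a) = (chF xd.vfd W i).x * (f.φ i).f a)
    (hr : ∀ i a, (f.φ i).f (a * (chF xd.vfd W' i).x) = (f.φ i).f a * (chF xd.vfd W i).x)
    (ul : ∀ {i j : I} (α : i ⟶ j) a, (f.φ j).f ((chT xd.vfd lam W').u α * a) =
      (chT xd.vfd lam W).u α * (f.φ j).f a)
    (ur : ∀ {i j : I} (α : i ⟶ j) a, (f.φ j).f (a * (chT xd.vfd lam W').u α) =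
      (f.φ j).f a * (chT xd.vfd lam W).u α) :
    EQV (wc (twB lam W' xd)) (wc (twB lam W xd)) :=
  eqt f (chT xd.vfd lam W') (chT xd.vfd lam W) ho (X.wt lam xd f he) hl hr ul ur _ _ _ _
    fun i => MorH.tw1 (f.φ i) (hl i) (hr i) (h i)

theorem half_odd {R : Type} [Ring R] [Algebra ℂ R] {w x : R} (h : w * x = -x * w) :
    (1 / 2 : ℂ) • (1 + w) * x + x * (1 / 2 : ℂ) • (1 + w) = x := by
  rw [smul_mul_assoc, mul_smul_comm, ← smul_add, add_mul, mul_add, h, one_mul, mul_one, neg_mul,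
    show x + -(x * w) + (x + x * w) = (2 : ℂ) • x by rw [two_smul]; abel, smul_smul]
  norm_num

/-- The Weyl pair `t`, `d/dt`. -/
def wwB {e : B0.A.R} (h : e = ((1 / 2 : ℂ) • (1 + E4.w w0) : E4 w0)) : WW B0 e where
  t := E4.io w0 Dt.t
  D := E4.io w0 Dt.d
  t_gr := E4.io_mem _
  D_gr := E4.io_mem _
  d_t := rfl
  d_D := rfl
  qt := (map_mul (E4.io w0) _ _).symm.trans
    ((congrArg (E4.io w0) (mul_assoc _ _ _)).trans (map_mul (E4.io w0) _ _))
  Dq := by
    change E4.io w0 Dt.d * E4.io w0 (Dt.t * Dt.t) - E4.io w0 (Dt.t * Dt.t) * E4.io w0 Dt.d =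
      E4.io w0 Dt.t + E4.io w0 Dt.t
    rw [← map_mul, ← map_mul, ← map_sub, ← map_add, ← mul_assoc, Dt.d_t, add_mul, mul_assoc,
      Dt.d_t, mul_add, ← mul_assoc, one_mul, mul_one, add_assoc, add_sub_cancel_left]
  et := h ▸ half_odd (R := E4 w0) (by rw [E4.w_io, w0_t, map_neg])
  eD := h ▸ half_odd (R := E4 w0) (by rw [E4.w_io, w0_d, map_neg])
  Dt := by
    change E4.io w0 Dt.d * E4.io w0 Dt.t - E4.io w0 Dt.t * E4.io w0 Dt.d = 1
    rw [← map_mul, ← map_mul, ← map_sub, Dt.d_t, add_sub_cancel_left, map_one]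

end

end Vale.Agent.P286E57
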